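import Vale.Agent.P088.R2.H338.I.Wm
import Vale.Agent.P088.R2.H871.Q.StA

/-!
# P088, stage 4, row QMWN: the corrector part
-/

open MeasureTheory Set Filter
open scoped ContDiff Matrix Topology NNReal

noncomputable section

namespace Vale.Agent.P088.R2.H338.I

open Vale.Agent.P088.LR Vale.Agent.P088.LR.U Vale.Agent.P088.LR.H158 Vale.Agent.P088.PJ
open Vale.Agent.P088.S4 Vale.Agent.P088.S4.H871

variable {n N : ℕ}

theorem nq_nonneg (A : Matrix (Fin N) (Fin N) ℂ) : 0 ≤ nq A :=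
  Finset.sum_nonneg fun _ _ => Finset.sum_nonneg fun _ _ => sq_nonneg _

theorem nq_le {A : Matrix (Fin N) (Fin N) ℂ} {B : ℝ} (h : ∀ a b, ‖A a b‖ ≤ B) :
    nq A ≤ (N * B) ^ 2 := by
  unfold nq
  have h1 : ∑ a : Fin N, ∑ b : Fin N, ‖A a b‖ ^ 2 ≤ ∑ _a : Fin N, ∑ _b : Fin N, B ^ 2 :=
    Finset.sum_le_sum fun a _ => Finset.sum_le_sum fun b _ =>
      pow_le_pow_left₀ (norm_nonneg _) (h a b) 2
  refine h1.trans (le_of_eq ?_)
  simp only [Finset.sum_const, Finset.card_univ, Fintype.card_fin, nsmul_eq_mul]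
  ring

/-- The weighted integral of a right hand side. -/
theorem rhs_int {O : Set (V n)} (hO : IsOpen O) {v : ℝ} (hv : 0 ≤ v)
    (hvol : volume O ≤ ENNReal.ofReal (v ^ 2)) {g : V n → ℝ} (hg : ContinuousOn g O) {ρ A : ℝ}
    (hA : 0 ≤ A) {F : MC n N} (hF : ∀ i j, ContDiff ℝ ∞ (fun x => F x i j))
    (hb : ∀ i j, ∀ x ∈ O, ‖F x i j‖ ≤ A * Real.exp (ρ * g x)) :
    IntegrableOn (fun x => nq (F x) * Real.exp (-(2 * ρ * g x))) O ∧
    ∫ x in O, nq (F x) * Real.exp (-(2 * ρ * g x)) ≤ (N * A * v) ^ 2 := by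
  have hfin : volume O ≠ ⊤ := ne_top_of_le_ne_top ENNReal.ofReal_ne_top hvol
  have hcn : Continuous fun x => nq (F x) := by
    unfold nq
    exact continuous_finsetSum _ fun a _ => continuous_finsetSum _ fun b _ =>
      ((hF a b).continuous.norm).pow 2
  have hm : AEStronglyMeasurable (fun x => nq (F x) * Real.exp (-(2 * ρ * g x)))
      (volume.restrict O) := by
    refine ContinuousOn.aestronglyMeasurable (hcn.continuousOn.mul ?_) hO.measurableSet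
    exact Real.continuous_exp.comp_continuousOn (continuousOn_const.mul hg).neg
  have hle : ∀ x ∈ O, ‖nq (F x) * Real.exp (-(2 * ρ * g x))‖ ≤ (N * A) ^ 2 := by
    intro x hx
    rw [Real.norm_of_nonneg (mul_nonneg (nq_nonneg _) (Real.exp_pos _).le)]
    have h1 := nq_le (A := F x) fun a b => hb a b x hx
    have h2 : (N * (A * Real.exp (ρ * g x))) ^ 2 * Real.exp (-(2 * ρ * g x)) = (N * A) ^ 2 := by
      have h3 : Real.exp (ρ * g x) ^ 2 * Real.exp (-(2 * ρ * g x)) = 1 := by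
        rw [← Real.exp_nat_mul, ← Real.exp_add]
        have : ((2 : ℕ) : ℝ) * (ρ * g x) + -(2 * ρ * g x) = 0 := by push_cast; ring
        rw [this, Real.exp_zero]
      calc (N * (A * Real.exp (ρ * g x))) ^ 2 * Real.exp (-(2 * ρ * g x))
          = (N * A) ^ 2 * (Real.exp (ρ * g x) ^ 2 * Real.exp (-(2 * ρ * g x))) := by ring
        _ = _ := by rw [h3, mul_one]
    rw [← h2]
    exact mul_le_mul_of_nonneg_right h1 (Real.exp_pos _).le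
  have : IsFiniteMeasure (volume.restrict O) :=
    ⟨by rw [Measure.restrict_apply_univ]; exact lt_top_iff_ne_top.2 hfin⟩
  refine ⟨Integrable.of_bound hm ((N * A) ^ 2) ((ae_restrict_iff' hO.measurableSet).2
    (ae_of_all _ hle)), ?_⟩
  have h1 := norm_setIntegral_le_of_norm_le_const (lt_top_iff_ne_top.2 hfin) hle
  have h2 : volume.real O ≤ v ^ 2 := by
    have h3 := ENNReal.toReal_mono ENNReal.ofReal_ne_top hvol
    rwa [ENNReal.toReal_ofReal (sq_nonneg v)] at h3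
  calc ∫ x in O, nq (F x) * Real.exp (-(2 * ρ * g x))
      ≤ ‖∫ x in O, nq (F x) * Real.exp (-(2 * ρ * g x))‖ := Real.le_norm_self _
    _ ≤ (N * A) ^ 2 * volume.real O := h1
    _ ≤ (N * A) ^ 2 * v ^ 2 := mul_le_mul_of_nonneg_left h2 (sq_nonneg _)
    _ = _ := by ring

/-- One corrector. -/
theorem corr1 (n N : ℕ) : ∃ (K : ℕ) (C ε : ℝ), 0 < C ∧ 0 < ε ∧
    ∀ (O O1 : Set (V n)), IsOpen O → ∀ r : ℝ, 0 < r → r ≤ 1 →
    (∀ x ∈ O1, Metric.ball x r ⊆ O) → ∀ v : ℝ, 0 ≤ v → volume O ≤ ENNReal.ofReal (v ^ 2) →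
    ∀ (s : MF n) (b : Fin n → MC n N), SmM s →
    (∀ i j, Cl K ε (fun x => s x i j - (1 : Matrix (Fin n) (Fin n) ℝ) i j)) →
    (∀ i, SmC (b i)) → (∀ i, ClC K 1 (b i)) →
    ∀ (g : V n → ℝ) (Λ : ℝ), ContinuousOn g O → 1 ≤ Λ → HY.S3.LG O1 r Λ g →
    ∀ ρ : ℝ, 1 ≤ ρ → SlR O s b g ρ 1 → ∀ (F : MC n N) (A : ℝ), 0 ≤ A →
    (∀ i j, ContDiff ℝ ∞ (fun x => F x i j)) →
    (∀ i j, ∀ l ≤ K, ∀ x ∈ O, ‖iteratedFDeriv ℝ l (fun y => F y i j) x‖ ≤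
      A * Real.exp (ρ * g x)) →
    ∃ W : MC n N, (∀ i j, ContDiffOn ℝ ∞ (fun x => W x i j) O) ∧ (∀ x ∈ O, Rv s b W x = F x) ∧
      ∀ i j, ∀ l ≤ 2, ∀ x ∈ O1, ‖iteratedFDeriv ℝ l (fun y => W y i j) x‖ ≤
        C * (ρ * Λ / r) ^ (n + 2) * (v + 1) * A * Real.exp (ρ * g x) := by
  obtain ⟨K, C, ε, hC, hε, H⟩ := wintM n N 2
  refine ⟨K, C * 2 ^ (n + 2) * (N + 1), ε, by positivity, hε, ?_⟩
  intro O O1 hO r hr hr1 hOO v hv hvol s b hs hs1 hb hb1 g Λ hg hΛ hLG ρ hρ hsl F A hA hF hFA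
  obtain ⟨i1, i2⟩ := rhs_int (N := N) hO hv hvol hg (ρ := ρ) hA hF fun i j x hx => by
    have := hFA i j 0 (Nat.zero_le _) x hx
    rwa [norm_iteratedFDeriv_zero] at this
  obtain ⟨W, w1, w2, w3, w4⟩ := hsl F (fun i j => (hF i j).contDiffOn) i1
  refine ⟨W, w1, w2, fun i j l hl x hx => ?_⟩
  have h1 := H O O1 hO r hr hr1 hOO s b hs hs1 hb hb1 g Λ hΛ hLG ρ hρ W F w1 w2 w3 A hA hFA i j
    l hl x hx
  rw [one_mul] at w4
  have h2 : √(∫ x in O, nq (W x) * Real.exp (-(2 * ρ * g x))) ≤ N * A * v := by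
    rw [← Real.sqrt_sq (by positivity : 0 ≤ N * A * v)]
    exact Real.sqrt_le_sqrt (w4.trans i2)
  have hρΛ : 0 < 2 * ρ * Λ / r := by
    have : 0 < ρ := by linarith
    have : 0 < Λ := by linarith
    positivity
  refine h1.trans ?_
  have h3 : √(∫ x in O, nq (W x) * Real.exp (-(2 * ρ * g x))) + A ≤ (N + 1) * (v + 1) * A := by
    have : (0 : ℝ) ≤ N := Nat.cast_nonneg _
    nlinarith [mul_nonneg this hA, mul_nonneg hv hA]
  have h4 : (2 * ρ * Λ / r) ^ (2 + n) = 2 ^ (n + 2) * (ρ * Λ / r) ^ (n + 2) := by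
    rw [← mul_pow, add_comm 2 n]
    congr 1
    ring
  calc C * (2 * ρ * Λ / r) ^ (2 + n) *
        (√(∫ x in O, nq (W x) * Real.exp (-(2 * ρ * g x))) + A) * Real.exp (ρ * g x)
      ≤ C * (2 * ρ * Λ / r) ^ (2 + n) * ((N + 1) * (v + 1) * A) * Real.exp (ρ * g x) := by
        gcongr
    _ = _ := by rw [h4]; ring

/-- **The corrector part of QMWN.** -/
theorem corrN : CorrN := by
  intro n N _ _
  obtain ⟨K₁, C₁, ε₁, hC₁, hε₁, H1⟩ := corr1 n N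
  obtain ⟨C, δ₁, hC1, hδ₁, hδ₁', hco⟩ := H871.coef n N (K₁ + 2)
  obtain ⟨Ct, δ₂, hCt, hδ₂, hδ₂', htau⟩ := tau_bd n (K₁ + 2)
  have hC0 : 0 < C := by linarith
  set δ : ℝ := min (min δ₁ δ₂) (min ε₁ (1 / C)) with hδ
  have hδ0 : 0 < δ := lt_min (lt_min hδ₁ hδ₂) (lt_min hε₁ (by positivity))
  have d1 : δ ≤ δ₁ := (min_le_left _ _).trans (min_le_left _ _)
  have d2 : δ ≤ δ₂ := (min_le_left _ _).trans (min_le_right _ _)
  have d3 : δ ≤ ε₁ := (min_le_right _ _).trans (min_le_left _ _)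
  have d4 : C * δ ≤ 1 := by
    have h : δ ≤ 1 / C := (min_le_right _ _).trans (min_le_right _ _)
    calc C * δ ≤ C * (1 / C) := mul_le_mul_of_nonneg_left h hC0.le
      _ = 1 := by field_simp
  have hH : Hy n N (K₁ + 3) K₁ (K₁ + 2) C δ := by
    refine ⟨fun c => ?_, fun c => ?_, fun c => ?_, fun c => ?_, fun i j => ⟨Ct, hCt, fun c => ?_⟩,
      by linarith, hδ0.le, d1.trans hδ₁', by omega, le_rfl⟩
    · exact (hco δ hδ0.le d1 (K₁ + 3) le_rfl (c.O ∩ c.Kc) c.s₁ c.P₁ c.G₁ c.rl.d₁).1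
    · exact (hco δ hδ0.le d1 (K₁ + 3) le_rfl (c.O ∩ c.Kc) c.s₂ c.P₂ c.G₂ c.rl.d₂).1
    · exact (hco δ hδ0.le d1 (K₁ + 3) le_rfl (c.O ∩ c.Kc) c.s₂ c.P₂ c.G₂ c.rl.d₂).2.1
    · exact (hco δ hδ0.le d1 (K₁ + 3) le_rfl (c.O ∩ c.Kc) c.s₂ c.P₂ c.G₂ c.rl.d₂).2.2
    · exact htau δ hδ0.le d2 c.s₁ c.τ c.rl.d₁.ss
        (fun i j l hl x => c.rl.d₁.cs i j l (by omega) x) c.te i j
  choose Ca hCa0 hCa using fun a => UM.bd (km_Fa hH a)
  obtain ⟨Cz, hCz0, hCz⟩ := UM.bd (km_F0 hH)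
  set S : ℝ := (∑ a, Ca a) + Cz with hS
  have hS0 : 0 ≤ S := add_nonneg (Finset.sum_nonneg fun a _ => hCa0 a) hCz0
  have hSa : ∀ a, Ca a ≤ S := fun a => by
    have := Finset.single_le_sum (f := Ca) (fun a _ => hCa0 a) (Finset.mem_univ a)
    linarith
  have hSz : Cz ≤ S := by
    have := Finset.sum_nonneg fun a (_ : a ∈ Finset.univ) => hCa0 a
    linarith
  refine ⟨K₁ + 3, n + 2, 1 + C₁ * S, δ, le_add_of_nonneg_right (by positivity), hδ0, ?_⟩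
  intro O O1 Kc hO _ r hr hr1 hOO v hv hvol t ht hOt d hd g Λ hg hΛ hLG ρ hρ hsl k2 M hM htk hk2
  have hs2 : ∀ i j, Cl K₁ ε₁ (fun x => d.s₂ x i j - (1 : Matrix (Fin n) (Fin n) ℝ) i j) :=
    fun i j l hl x => (hd.rl.d₂.cs i j l (by omega) x).trans d3
  have hcb := hco δ hδ0.le d1 (K₁ + 3) le_rfl (O ∩ Kc) d.s₂ d.P₂ d.G₂ hd.rl.d₂
  have hbs : ∀ i, SmC (bR d.s₂ d.P₂ d.G₂ i) := fun i a b => (hcb.1.R i a b).1
  have hb1 : ∀ i, ClC K₁ 1 (bR d.s₂ d.P₂ d.G₂ i) := fun i a b l hl x =>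
    ((hcb.1.R i a b).2 l (by omega) x (mem_univ _)).trans d4
  have hρΛ : 1 ≤ ρ * Λ / r := by
    rw [le_div_iff₀ hr]
    have : 1 ≤ ρ * Λ := one_le_mul_of_one_le_of_one_le hρ hΛ
    linarith
  -- the configuration at `x`
  let cf : ∀ x ∈ O, Cf n N (K₁ + 3) δ K₁ := fun x hx =>
    ⟨O, Kc, d.j₀, d.s₁, d.s₂, d.P₁, d.P₂, d.G₁, d.G₂, d.β, d.Y, d.D, hd.rl, d.Γ, hd.ig, d.τ, hd.st,
      hd.it, k2, htk, (x, x), by simp, ⟨M * Real.exp (ρ * g x), by positivity⟩,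
      fun i j a b m hm => hk2 i j a b m (by omega) x hx⟩
  -- a configuration for the smoothness
  obtain ⟨B0, hB0⟩ := Finite.exists_le (fun p : Fin n × Fin n × Fin N × Fin N × Fin (K₁ + 3) =>
      ‖iteratedFDeriv ℝ p.2.2.2.2 (fun x => k2 p.1 p.2.1 x p.2.2.1 p.2.2.2.1) (0 : V n)‖)
  let c0 : Cf n N (K₁ + 3) δ K₁ :=
    ⟨O, Kc, d.j₀, d.s₁, d.s₂, d.P₁, d.P₂, d.G₁, d.G₂, d.β, d.Y, d.D, hd.rl, d.Γ, hd.ig, d.τ, hd.st,
      hd.it, k2, htk, (0, 0), by simp, B0.toNNReal,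
      fun i j a b m hm => (hB0 (i, j, a, b, ⟨m, by omega⟩)).trans (Real.le_coe_toNNReal B0)⟩
  have smA : ∀ a i j, ContDiff ℝ ∞ (fun x => Fa d.s₁ d.s₂ d.τ d.P₂ d.G₂ d.β d.Γ k2 a x i j) :=
    fun a i j => (km_Fa hH a i j).sm c0
  have smZ : ∀ i j, ContDiff ℝ ∞ (fun x => F0 d.s₁ d.s₂ d.τ d.P₂ d.G₂ d.β d.Y d.Γ k2 x i j) :=
    fun i j => (km_F0 hH i j).sm ⟨c0, 1, le_rfl, by simp [c0]⟩
  have bA : ∀ a i j, ∀ l ≤ K₁, ∀ x ∈ O, ‖iteratedFDeriv ℝ l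
      (fun y => Fa d.s₁ d.s₂ d.τ d.P₂ d.G₂ d.β d.Γ k2 a y i j) x‖ ≤
      S * M * Real.exp (ρ * g x) := by
    intro a i j l hl x hx
    have h1 := hCa a (cf x hx) i j l (by omega)
    have h2 : Ca a * (M * Real.exp (ρ * g x)) ≤ S * (M * Real.exp (ρ * g x)) :=
      mul_le_mul_of_nonneg_right (hSa a) (by positivity)
    rw [mul_assoc]
    exact h1.trans h2
  have bZ : ∀ i j, ∀ l ≤ K₁, ∀ x ∈ O, ‖iteratedFDeriv ℝ l
      (fun y => F0 d.s₁ d.s₂ d.τ d.P₂ d.G₂ d.β d.Y d.Γ k2 y i j) x‖ ≤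
      S * (t * M) * Real.exp (ρ * g x) := by
    intro i j l hl x hx
    have h1 := hCz ⟨cf x hx, ⟨t, by linarith⟩, by
      show ((1 : ℝ≥0) : ℝ) ≤ t; rw [NNReal.coe_one]; linarith, hOt x hx⟩ i j l (by omega)
    have h2 : Cz * (t * (M * Real.exp (ρ * g x))) ≤ S * (t * (M * Real.exp (ρ * g x))) :=
      mul_le_mul_of_nonneg_right hSz (by positivity)
    refine (h1.trans h2).trans (le_of_eq (by ring))
  choose W w1 w2 w3 using fun a => H1 O O1 hO r hr hr1 hOO v hv hvol d.s₂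
    (bR d.s₂ d.P₂ d.G₂) hd.rl.d₂.ss hs2 hbs hb1 g Λ hg hΛ hLG ρ hρ hsl
    (Fa d.s₁ d.s₂ d.τ d.P₂ d.G₂ d.β d.Γ k2 a) (S * M) (by positivity) (smA a) (bA a)
  obtain ⟨W0, z1, z2, z3⟩ := H1 O O1 hO r hr hr1 hOO v hv hvol d.s₂
    (bR d.s₂ d.P₂ d.G₂) hd.rl.d₂.ss hs2 hbs hb1 g Λ hg hΛ hLG ρ hρ hsl
    (F0 d.s₁ d.s₂ d.τ d.P₂ d.G₂ d.β d.Y d.Γ k2) (S * (t * M)) (by positivity) smZ bZ
  have hfin : ∀ (q x : ℝ), 0 ≤ q → q ≤ t → 0 ≤ x →
      C₁ * (ρ * Λ / r) ^ (n + 2) * (v + 1) * (S * (q * M)) * x ≤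
      (1 + C₁ * S) * (t * ρ * Λ / r * (v + 1)) ^ (n + 2) * M * x := by
    intro q x hq hqt hx
    have k1 : 1 ≤ t * (v + 1) := by nlinarith
    have k2 : t * (v + 1) ≤ (t * (v + 1)) ^ (n + 2) := le_self_pow₀ k1 (by omega)
    have k3 : (t * ρ * Λ / r * (v + 1)) ^ (n + 2) =
        (ρ * Λ / r) ^ (n + 2) * (t * (v + 1)) ^ (n + 2) := by
      rw [← mul_pow]; congr 1; ring
    have k4 : 0 ≤ (ρ * Λ / r) ^ (n + 2) := by positivity
    rw [k3]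
    calc C₁ * (ρ * Λ / r) ^ (n + 2) * (v + 1) * (S * (q * M)) * x
        = C₁ * S * ((ρ * Λ / r) ^ (n + 2) * (q * (v + 1))) * M * x := by ring
      _ ≤ (1 + C₁ * S) * ((ρ * Λ / r) ^ (n + 2) * (t * (v + 1)) ^ (n + 2)) * M * x := by
          refine mul_le_mul_of_nonneg_right (mul_le_mul_of_nonneg_right (mul_le_mul (by linarith)
            (mul_le_mul_of_nonneg_left ((mul_le_mul_of_nonneg_right hqt (by linarith)).trans k2)
              k4) (by positivity) (by positivity)) hM) hx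
  refine ⟨W, W0, w1, z1, w2, z2, fun a i j l hl x hx => ?_, fun i j l hl x hx => ?_⟩
  · refine (w3 a i j l hl x hx).trans ?_
    have := hfin 1 (Real.exp (ρ * g x)) zero_le_one (by linarith) (Real.exp_pos _).le
    rwa [one_mul] at this
  · refine (z3 i j l hl x hx).trans ?_
    exact hfin t (Real.exp (ρ * g x)) (by linarith) le_rfl (Real.exp_pos _).le

end Vale.Agent.P088.R2.H338.I
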